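import Vale.Agent.P312.Main

namespace Vale.Agent.Results.P312.OneTapeSpace

open Vale.Agent.P312

/-- One-tape time `t` can be simulated in space `t ^ (1/2 - δ)` for a constant `δ > 0` (the
question Q1); more precisely in space `t ^ (2/5) * log² t`, hence in space `t ^ e` for every
`e > 2/5`, and `e₁ ≤ 2/5`. -/
theorem result :
    (∃ δ : ℝ, 0 < δ ∧ ∀ (α : Type) [Finite α] (t : ℕ → ℕ), (∀ n, n ≤ t n) →
      (TIME1 t : Set (Set (List α))) ⊆ SPACE (fun n => (t n : ℝ) ^ ((1 : ℝ) / 2 - δ))) ∧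
    (∀ e : ℝ, 2 / 5 < e → ∀ (α : Type) [Finite α] (t : ℕ → ℕ), (∀ n, n ≤ t n) →
      (TIME1 t : Set (Set (List α))) ⊆ SPACE (fun n => (t n : ℝ) ^ e)) ∧
    (∀ (α : Type) [Finite α] (t : ℕ → ℕ), (∀ n, n ≤ t n) →
      (TIME1 t : Set (Set (List α))) ⊆
        SPACE (fun n => (t n : ℝ) ^ ((2 : ℝ) / 5) * Real.log (t n + 2) ^ 2)) ∧
    (∀ 𝒯 : Set (ℕ → ℕ), e1 𝒯 ≤ 2 / 5) :=
  ⟨⟨1 / 20, by norm_num, fun _ _ t ht => TIME1_subset_SPACE_rpow t ht (by norm_num)⟩,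
    fun _ he _ _ t ht => TIME1_subset_SPACE_rpow t ht he,
    fun _ _ t ht => TIME1_subset_SPACE t ht,
    fun 𝒯 => e1_le 𝒯⟩

end Vale.Agent.Results.P312.OneTapeSpace
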